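import Crest.Agent.X262.Gwb.Defs
import Crest.Agent.X262.Brg.Hyp0
import Crest.Agent.X277.Cns.PBL

/-!
# Row 262, road B (helper2), part 2: projective spaces

* `pn n`       : the projective space of dimension `n`;
* `cone S hS`  : the projective space with one more coordinate; `cπ`, `cτ`;
* `isProj_pn`, `isProj_cone`, `dim_proj`.
-/

set_option autoImplicit false
set_option linter.style.haveILetI false

noncomputable section

namespace Crest.Agent.X262.Ms2

open Crest.Agent.X277 Crest.Agent.X277.Lef Crest.Agent.X277.AN.G1 Crest.Agent.X277.Cns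
open Crest.Agent.X262.Coh Crest.Agent.X262.Gwb Crest.Agent.X262.Brg Crest.Agent.X262.Brg.Hyp0
open MvPolynomial

theorem gp_iff {K : Type} [Field K] [Algebra ℂ K] {N : ℕ} {y : Fin (N + 1) → K} :
    GP (0 : MvPolynomial (Fin (N + 1)) ℂ) y ↔ ∀ (m : ℕ) (q : MvPolynomial (Fin (N + 1)) ℂ),
      q.IsHomogeneous m → aeval y q = 0 → q = 0 :=
  forall₃_congr fun _ _ _ => by
    rw [zero_dvd_iff]
    exact ⟨fun h => h.1, fun h => ⟨h, fun h0 => by rw [h0, map_zero]⟩⟩

theorem dim_proj {X : SV} (h : IsProj X) : X.dim = X.P.N := by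
  let x : Fin X.P.N → X.F := fun j => X.P.y j.succ / X.P.y 0
  have h0 := X.P.y_ne 0
  have h1 : (Fin.cons 1 x : Fin (X.P.N + 1) → X.F) = (X.P.y 0)⁻¹ • X.P.y := by
    funext j
    refine Fin.cases ?_ (fun j => ?_) j
    · simp [h0]
    · simp [x, div_eq_inv_mul]
  have h2 : AlgebraicIndependent ℂ x := by
    rw [algebraicIndependent_iff]
    intro q hq
    have h3 := Cubic.hom_isHomogeneous q.totalDegree q
    have h4 := aeval_cons x (Cubic.hom q.totalDegree q)
    rw [Cubic.deh_hom le_rfl, hq, h1, aeval_smul h3] at h4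
    rw [← Cubic.deh_hom (le_refl q.totalDegree),
      h _ _ h3 ((mul_eq_zero.1 h4).resolve_left (pow_ne_zero _ (inv_ne_zero h0))), map_zero]
  have h3 : IntermediateField.adjoin ℂ (Set.range x) = ⊤ := by
    have h4 : X.P.A 0 ≤ (IntermediateField.adjoin ℂ (Set.range x)).toSubalgebra := by
      refine Algebra.adjoin_le ?_
      rintro _ ⟨j, rfl⟩
      refine Fin.cases ?_ (fun j => ?_) j
      · change X.P.y 0 / X.P.y 0 ∈ IntermediateField.adjoin ℂ (Set.range x)
        rw [div_self h0]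
        exact one_mem _
      · exact IntermediateField.subset_adjoin ℂ _ ⟨j, rfl⟩
    refine top_unique fun f _ => ?_
    obtain ⟨a, ha, c, hc, -, rfl⟩ := X.P.frac f
    exact div_mem (show a ∈ IntermediateField.adjoin ℂ (Set.range x) from h4 ha) (h4 hc)
  obtain ⟨b⟩ := basis_of_free h2 h3
  rw [SV.dim, BD.dim, Module.finrank_eq_card_basis b, Fintype.card_fin]

theorem free_X (n : ℕ) : ∃ x : Fin n → FractionRing (MvPolynomial (Fin n) ℂ),
    AlgebraicIndependent ℂ x ∧ IntermediateField.adjoin ℂ (Set.range x) = ⊤ :=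
  exists_free AlgEquiv.refl

/-- projective space -/
def pn (n : ℕ) : SV :=
  sv (F := FractionRing (MvPolynomial (Fin n) ℂ))
    ⟨n, Fin.cons 1 (free_X n).choose, (gp_free (free_X n).choose_spec.1).ne₀,
      frac_of_adjoin (free_X n).choose_spec.2, (gp_free (free_X n).choose_spec.1).smooth₀⟩

theorem isProj_pn (n : ℕ) : IsProj (pn n) := gp_iff.1 (gp_free (free_X n).choose_spec.1)



section Cone

variable {M E : Type} [Field M] [Algebra ℂ M] [Field E] [Algebra ℂ E] {π : M →ₐ[ℂ] E} {τ : E}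
  {N : ℕ} {y : Fin (N + 1) → M}

theorem aeval_cone (q : MvPolynomial (Fin (N + 1 + 1)) ℂ) :
    aeval (Fin.cons τ fun k => π (y k) : Fin (N + 1 + 1) → E) q =
      evp π τ ((finSuccEquiv ℂ _ q).map (aeval y : MvPolynomial (Fin (N + 1)) ℂ →ₐ[ℂ] M)) := by
  have h : (aeval (Fin.cons τ fun k => π (y k) : Fin (N + 1 + 1) → E)) =
      (evp π τ).comp ((Polynomial.mapAlgHom (aeval y : MvPolynomial (Fin (N + 1)) ℂ →ₐ[ℂ] M)).comp
        (finSuccEquiv ℂ (N + 1)).toAlgHom) := by
    ext1 i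
    refine Fin.cases ?_ (fun i => ?_) i
    · simp [finSuccEquiv_X_zero]
    · simp [finSuccEquiv_X_succ]
  exact DFunLike.congr_fun h q

theorem gp_cone (h : IsRF π τ) (hy : GP (0 : MvPolynomial (Fin (N + 1)) ℂ) y) :
    GP (0 : MvPolynomial (Fin (N + 1 + 1)) ℂ) (Fin.cons τ fun k => π (y k)) := by
  rw [gp_iff] at hy ⊢
  intro m q hq h0
  rw [aeval_cone] at h0
  have h1 := h.eq_zero h0
  refine (finSuccEquiv ℂ _).injective (Polynomial.ext fun i => ?_)
  rw [map_zero, Polynomial.coeff_zero]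
  by_cases hi : i ≤ m
  · refine hy (m - i) _ (hq.finSuccEquiv_coeff_isHomogeneous i _ (by omega)) ?_
    simpa using congrArg (Polynomial.coeff · i) h1
  · refine Polynomial.coeff_eq_zero_of_natDegree_lt ?_
    rw [natDegree_finSuccEquiv]
    exact ((degreeOf_le_totalDegree q 0).trans hq.totalDegree_le).trans_lt (by omega)

theorem frac_of_subfield {A : Subalgebra ℂ E} (h : ∀ T : Subfield E, (∀ a ∈ A, a ∈ T) → ∀ x, x ∈ T)
    (f : E) : ∃ a ∈ A, ∃ c ∈ A, c ≠ 0 ∧ f = a / c := by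
  obtain ⟨a, ha, c, hc, rfl⟩ := Subfield.mem_closure_iff.1
    (h (Subfield.closure (A : Set E)) (fun a ha => Subfield.subset_closure ha) f)
  have h1 : Subring.closure (A : Set E) = A.toSubring := Subring.closure_eq A.toSubring
  rw [h1] at ha hc
  by_cases h0 : c = 0
  · exact ⟨0, zero_mem _, 1, one_mem _, one_ne_zero, by simp [h0]⟩
  · exact ⟨a, ha, c, hc, h0, rfl⟩

/-- a subfield which contains the image of a chart contains the image of the field -/
theorem mem_of_chart {P : PModel ℂ M} {T : Subfield E} (h0 : ∀ c : ℂ, algebraMap ℂ E c ∈ T)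
    {i : Fin (P.N + 1)} (h : ∀ j, π (P.y j / P.y i) ∈ T) (f : M) : π f ∈ T := by
  have h2 : ∀ a ∈ P.A i, π a ∈ T := fun a ha => by
    refine Algebra.adjoin_induction (p := fun a _ => π a ∈ T) ?_
      (fun c => ?_) (fun a b _ _ h1 h2 => by rw [map_add]; exact add_mem h1 h2)
      (fun a b _ _ h1 h2 => by rw [map_mul]; exact mul_mem h1 h2) ha
    · rintro _ ⟨k, rfl⟩
      exact h k
    · rw [AlgHom.commutes]
      exact h0 c
  obtain ⟨a, ha, c, hc, -, rfl⟩ := P.frac' i f
  rw [map_div₀]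
  exact div_mem (h2 a ha) (h2 c hc)

theorem frac_cone (h : IsRF π τ) (P : PModel ℂ M) (f : E) :
    ∃ a ∈ chart ℂ (Fin.cons τ fun k => π (P.y k) : Fin (P.N + 1 + 1) → E) 0,
    ∃ c ∈ chart ℂ (Fin.cons τ fun k => π (P.y k) : Fin (P.N + 1 + 1) → E) 0,
      c ≠ 0 ∧ f = a / c := by
  refine frac_of_subfield (fun T hT => ?_) f
  have h1 : ∀ k, π (P.y k) / τ ∈ T := fun k => hT _ (div_mem_chart _ 0 k.succ)
  have h2 : ∀ a, π a ∈ T := mem_of_chart (i := 0) (fun c => hT _ (algebraMap_mem _ c)) fun k => by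
    rw [map_div₀, ← div_div_div_cancel_right₀ h.t_ne]
    exact div_mem (h1 k) (h1 0)
  refine h.mem_subfield T h2 ?_
  have h3 := div_mem (h2 (P.y 0)) (h1 0)
  rwa [div_div_cancel₀ ((map_ne_zero π).2 (P.y_ne 0))] at h3

end Cone

variable (S : SV)

/-- the functions on the base -/
def cπ : S.F →ₐ[ℂ] RatFunc S.F := IsScalarTower.toAlgHom ℂ S.F (RatFunc S.F)

/-- the new coordinate -/
def cτ : RatFunc S.F := RatFunc.X

theorem c_rf : IsRF (cπ S) (cτ S) := isRF_ratFunc

variable (hS : IsProj S)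

/-- the projective space with one more coordinate -/
def cone : SV :=
  sv (F := RatFunc S.F) ⟨S.P.N + 1, Fin.cons (cτ S) fun k => cπ S (S.P.y k),
    (gp_cone (c_rf S) (gp_iff.2 hS)).ne₀, frac_cone (c_rf S) S.P,
    (gp_cone (c_rf S) (gp_iff.2 hS)).smooth₀⟩

theorem isProj_cone : IsProj (cone S hS) := gp_iff.1 (gp_cone (c_rf S) (gp_iff.2 hS))




end Crest.Agent.X262.Ms2
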